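import Vale.Agent.P269.G2I.H333.Leib

/-!
# The derivative of the powers of a vector field in the directions of `κ`: recursion
-/

namespace Vale.Agent.P269.G2.H333

open Finset

set_option linter.unusedSectionVars false

theorem IsDer.sum {R : Type*} [CommRing R] {δ : R → R} (h : IsDer δ) {α : Type*} (s : Finset α)
    (f : α → R) : δ (∑ i ∈ s, f i) = ∑ i ∈ s, δ (f i) := by
  classical
  induction s using Finset.induction_on with
  | empty => simp [h.zero]
  | insert a s ha ih => rw [sum_insert ha, sum_insert ha, h.add, ih]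

section

variable {R S ι κ : Type*} [CommRing R] [CommRing S] [Fintype ι] [Fintype κ] [DecidableEq κ]

/-- **[r1a]** the components in `κ` vanish -/
theorem pow_inr (ev : R →+* S) (c : ι ⊕ κ → ι ⊕ κ → ι ⊕ κ → R)
    (c1 : ∀ i j b, ev (c (Sum.inl i) (Sum.inl j) (Sum.inr b)) = 0)
    (E : ι ⊕ κ → R) (E0 : ∀ b, ev (E (Sum.inr b)) = 0) (x : ℕ → ι ⊕ κ → R)
    (x0 : ∀ b, x 0 (Sum.inr b) = 0)
    (xs : ∀ m k, x (m + 1) k = ∑ i, ∑ j, E i * x m j * c i j k) (m : ℕ) (b : κ) :
    ev (x m (Sum.inr b)) = 0 := by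
  induction m generalizing b with
  | zero => rw [x0, map_zero]
  | succ m ih =>
    rw [xs, map_sum]
    refine sum_eq_zero fun i _ => ?_
    rw [map_sum]
    refine sum_eq_zero fun j _ => ?_
    rw [map_mul, map_mul]
    rcases i with i | u
    · rcases j with j | u
      · rw [c1, mul_zero]
      · rw [ih, mul_zero, zero_mul]
    · rw [E0, zero_mul, zero_mul]

/-- **[r1a]** the first derivative of the components in `κ` in the directions of `κ` -/
theorem rho_rec (D : κ → R → R) (hD : ∀ v, IsDer (D v)) (ev : R →+* S)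
    (c : ι ⊕ κ → ι ⊕ κ → ι ⊕ κ → R) (lamc : ι → S) (t : ι → ι → S)
    (c1 : ∀ i j b, ev (c (Sum.inl i) (Sum.inl j) (Sum.inr b)) = 0)
    (c2 : ∀ i u b, ev (c (Sum.inl i) (Sum.inr u) (Sum.inr b)) = if u = b then lamc i else 0)
    (c2' : ∀ i u b, ev (c (Sum.inr u) (Sum.inl i) (Sum.inr b)) = if u = b then lamc i else 0)
    (c3 : ∀ v i j b, ev (D v (c (Sum.inl i) (Sum.inl j) (Sum.inr b))) =
      if v = b then t i j else 0)
    (E : ι ⊕ κ → R) (e : κ → S) (E0 : ∀ b, ev (E (Sum.inr b)) = 0)
    (E1 : ∀ v i, ev (D v (E (Sum.inl i))) = 0)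
    (E2 : ∀ v b, ev (D v (E (Sum.inr b))) = if v = b then e v else 0)
    (x : ℕ → ι ⊕ κ → R) (x0 : ∀ b, x 0 (Sum.inr b) = 0)
    (xs : ∀ m k, x (m + 1) k = ∑ i, ∑ j, E i * x m j * c i j k)
    (ρ : κ → ℕ → S) (ρ0 : ∀ v, ρ v 0 = 0)
    (ρs : ∀ v m, ρ v (m + 1) = (∑ i, ev (E (Sum.inl i)) * lamc i) * ρ v m +
      e v * (∑ j, ev (x m (Sum.inl j)) * lamc j) +
      ∑ i, ∑ j, ev (E (Sum.inl i)) * ev (x m (Sum.inl j)) * t i j) (m : ℕ) (v b : κ) :
    ev (D v (x m (Sum.inr b))) = if v = b then ρ v m else 0 := by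
  have hx := pow_inr ev c c1 E E0 x x0 xs
  induction m generalizing b with
  | zero => rw [x0, (hD v).zero, map_zero, ρ0, ite_self]
  | succ m ih =>
    have step : ∀ i j, ev (D v (E i * x m j * c i j (Sum.inr b))) =
        ev (D v (E i)) * ev (x m j) * ev (c i j (Sum.inr b)) +
        ev (E i) * ev (D v (x m j)) * ev (c i j (Sum.inr b)) +
        ev (E i) * ev (x m j) * ev (D v (c i j (Sum.inr b))) := by
      intro i j
      rw [(hD v).mul, (hD v).mul]
      simp only [map_add, map_mul]
      ring
    rw [xs, (hD v).sum, map_sum]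
    have s1 : ∀ i, ev (D v (∑ j, E i * x m j * c i j (Sum.inr b))) =
        ∑ j, ev (D v (E i * x m j * c i j (Sum.inr b))) := by
      intro i
      rw [(hD v).sum, map_sum]
    rw [sum_congr rfl fun i _ => s1 i, Fintype.sum_sum_type]
    -- the block of `ι`
    have b1 : ∀ i : ι, ∑ j, ev (D v (E (Sum.inl i) * x m j * c (Sum.inl i) j (Sum.inr b))) =
        (∑ j, ev (E (Sum.inl i)) * ev (x m (Sum.inl j)) * (if v = b then t i j else 0)) +
          ev (E (Sum.inl i)) * lamc i * (if v = b then ρ v m else 0) := by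
      intro i
      rw [Fintype.sum_sum_type]
      congr 1
      · refine sum_congr rfl fun j _ => ?_
        rw [step, E1, c1, c3]
        ring
      · have : ∀ u : κ, ev (D v (E (Sum.inl i) * x m (Sum.inr u) *
            c (Sum.inl i) (Sum.inr u) (Sum.inr b))) =
            if u = v then ev (E (Sum.inl i)) * ρ v m * (if u = b then lamc i else 0) else 0 := by
          intro u
          rw [step, E1, hx, ih, c2]
          by_cases h : v = u
          · rw [if_pos h, if_pos h.symm]
            ring
          · rw [if_neg h, if_neg (Ne.symm h)]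
            ring
        rw [sum_congr rfl fun u _ => this u, sum_ite_eq' univ v, if_pos (mem_univ _)]
        by_cases h : v = b
        · rw [if_pos h, if_pos h]
          ring
        · rw [if_neg h, if_neg h]
          ring
    -- the block of `κ`
    have b2 : ∀ u : κ, ∑ j, ev (D v (E (Sum.inr u) * x m j * c (Sum.inr u) j (Sum.inr b))) =
        if u = v then (e v * ∑ j, ev (x m (Sum.inl j)) * (if u = b then lamc j else 0)) else 0 := by
      intro u
      rw [Fintype.sum_sum_type]
      have z : ∑ w : κ, ev (D v (E (Sum.inr u) * x m (Sum.inr w) *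
          c (Sum.inr u) (Sum.inr w) (Sum.inr b))) = 0 := by
        refine sum_eq_zero fun w _ => ?_
        rw [step, hx, E0]
        ring
      rw [z, add_zero]
      by_cases h : v = u
      · rw [if_pos h.symm, mul_sum]
        refine sum_congr rfl fun j _ => ?_
        rw [step, E0, E2, if_pos h, c2']
        ring
      · rw [if_neg (Ne.symm h)]
        refine sum_eq_zero fun j _ => ?_
        rw [step, E0, E2, if_neg h]
        ring
    rw [sum_congr rfl fun i _ => b1 i, sum_congr rfl fun u _ => b2 u, sum_add_distrib,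
      sum_ite_eq' univ v, if_pos (mem_univ _), ρs]
    by_cases h : v = b
    · simp only [if_pos h, ← sum_mul]
      ring
    · simp only [if_neg h, mul_zero, sum_const_zero, add_zero]

end

end Vale.Agent.P269.G2.H333
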