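import Vale.Agent.P269.G2I.H984.Alpha

/-!
# [G2] the derivative of the powers of the Euler field in a primitive direction: closed form
-/

set_option autoImplicit false

namespace Vale.Agent.P269.G2.H333

open Finset.HasAntidiagonal (antidiagonal)
open Vale.Agent.P269.CI Vale.Agent.P269.G1

variable {X : CompleteIntersection} {F : ℕ → ℕ → List (Ins X) → ℂ}

variable (hF : IsGW X F) (h1 : IsGenusOne F)

theorem der_sum_mul (x : AA hF h1) (f g : Fin (X.dim + 1) → RR X) :
    der hF h1 x (∑ i, f i * g i) = ∑ i, der hF h1 x (f i) * g i + ∑ i, f i * der hF h1 x (g i) := by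
  have h : ∀ s : Finset (Fin (X.dim + 1)), der hF h1 x (∑ i ∈ s, f i * g i) =
      ∑ i ∈ s, der hF h1 x (f i) * g i + ∑ i ∈ s, f i * der hF h1 x (g i) := by
    intro s
    induction s using Finset.induction_on with
    | empty =>
      rw [Finset.sum_empty, Finset.sum_empty, Finset.sum_empty, add_zero]
      have h0 := der_add hF h1 x 0 0
      rw [add_zero] at h0
      exact left_eq_add.1 h0
    | insert a s ha ih =>
      rw [Finset.sum_insert ha, der_add, ih, der_mul, Finset.sum_insert ha, Finset.sum_insert ha]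
      ring
  exact h _

/-- `∑ E_c ∂_x λ_c = λ (d x)` -/
theorem sum_E_der_lamc (v : X.Prim) (x : AA hF h1) :
    ∑ i, Eu hF h1 i * der hF h1 x (lamc h1 i) = (lam hF h1 (dd hF h1 x)) v := by
  have h := (der_sum_mul hF h1 x (fun i => Eu hF h1 i) (fun i => lamc h1 i)).symm.trans
    (der_lamc_E hF h1 v x)
  have h2 : ∀ i, der hF h1 x (Eu hF h1 i) = x i - ((i : ℕ) : RR X) * x i := fun i =>
    congrFun (nab_E hF h1 x) i
  have h3 : ∑ i, der hF h1 x (Eu hF h1 i) * lamc h1 i =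
      ∑ i, x i * lamc h1 i - (lam hF h1 (dd hF h1 x)) v := by
    change _ = ∑ i, x i * lamc h1 i - ∑ i : Fin (X.dim + 1), ((i : ℕ) : RR X) * x i * lamc h1 i
    rw [← Finset.sum_sub_distrib]
    refine Finset.sum_congr rfl fun i _ => ?_
    rw [h2]
    ring
  rw [h3] at h
  linear_combination h

theorem sum_sum_lamc (v : X.Prim) (x : AA hF h1) :
    ∑ i, ∑ j, Eu hF h1 i * x j * MvPowerSeries.pderiv (PowerSeries ℂ) j (lamc h1 i) =
      (lam hF h1 (dd hF h1 x)) v := by
  rw [← sum_E_der_lamc]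
  refine Finset.sum_congr rfl fun i _ => ?_
  change _ = _ * ∑ j, x j * MvPowerSeries.pderiv (PowerSeries ℂ) j (lamc h1 i)
  rw [Finset.mul_sum]
  exact Finset.sum_congr rfl fun j _ => by ring

theorem phi_succ (m : ℕ) : (frob hF h1).phi (m + 1) =
    Eu hF h1 * (frob hF h1).phi m + (muO hF h1).1 (Eu hF h1 ^ m) := by
  rw [H984.phi_eq, H984.phi_eq]
  have h := H984.ph_add hF h1 1 m 1
  rw [add_comm 1 m, pow_one, mul_one] at h
  rw [h]
  have h2 : H984.ph hF h1 1 (Eu hF h1 ^ m) = (muO hF h1).1 (Eu hF h1 ^ m) := by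
    unfold H984.ph
    rw [Finset.sum_range_one, pow_zero, one_mul, one_mul]
  rw [h2, add_comm]

theorem phi_zero' : (frob hF h1).phi 0 = 0 := by
  rw [H984.phi_eq]
  unfold H984.ph
  rw [Finset.sum_range_zero]

/-- **[r1b]** -/
theorem rho_eq (v : X.Prim) (ρ : ℕ → RR X) (h0 : ρ 0 = 0)
    (hs : ∀ m, ρ (m + 1) = (lam hF h1 (Eu hF h1)) v * ρ m +
      (1 - ((X.hodgeP v : ℕ) : RR X)) * (lam hF h1 (Eu hF h1)) v ^ m +
      ∑ i, ∑ j, Eu hF h1 i * (Eu hF h1 ^ m : AA hF h1) j *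
        MvPowerSeries.pderiv (PowerSeries ℂ) j (lamc h1 i)) (m : ℕ) :
    ρ m = (1 - cst X (mu X (Sum.inr v))) *
      ((m : RR X) * (lam hF h1 (Eu hF h1)) v ^ (m - 1)) + (lam hF h1 ((frob hF h1).phi m)) v := by
  induction m with
  | zero =>
    rw [h0, phi_zero', map_zero]
    simp
  | succ m ih =>
    rw [hs, ih, sum_sum_lamc hF h1 v, phi_succ, map_add, map_mul]
    have e1 : (lam hF h1 ((muO hF h1).1 (Eu hF h1 ^ m))) v =
        (lam hF h1 (dd hF h1 (Eu hF h1 ^ m))) v -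
          cst X ((X.dim : ℂ) / 2) * (lam hF h1 (Eu hF h1)) v ^ m := by
      have : (muO hF h1).1 (Eu hF h1 ^ m) = dd hF h1 (Eu hF h1 ^ m) -
        cst X ((X.dim : ℂ) / 2) • (Eu hF h1 ^ m) := rfl
      rw [this, map_sub, map_smul, ← Pi.pow_apply ((lam hF h1) (Eu hF h1)) m v,
        ← map_pow (lam hF h1)]
      rfl
    have e2 : cst X (mu X (Sum.inr v)) = ((X.hodgeP v : ℕ) : RR X) - cst X ((X.dim : ℂ) / 2) := by
      have : mu X (Sum.inr v) = ((X.hodgeP v : ℕ) : ℂ) - (X.dim : ℂ) / 2 := rfl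
      rw [this]
      simp only [cst, map_sub, map_natCast]
    change _ = _ + ((lam hF h1 (Eu hF h1)) v * (lam hF h1 ((frob hF h1).phi m)) v +
      (lam hF h1 ((muO hF h1).1 (Eu hF h1 ^ m))) v)
    rw [e1, e2]
    rcases m with _ | m
    · simp
      ring
    · rw [Nat.add_sub_cancel, Nat.add_sub_cancel, pow_succ]
      push_cast
      ring

end Vale.Agent.P269.G2.H333
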