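import Vale.Agent.P269.G1I.All
import Vale.Agent.P269.G1I.H410.Lamc
import Vale.Agent.P269.G1I.H598.Cor
import Vale.Agent.P269.G2I.BSpec1
import Vale.Agent.P269.G2I.H980.Basic
import Vale.Agent.P269.G2I.Model1
import Vale.Agent.P269.G2I.T.H521_SrB
import Vale.Agent.P269.G2I.T.H598_Ya
import Vale.Agent.P269.G2I.T.H861_Yb
import Vale.Agent.P269.G2I.XSpec1

/-!
# [Yc] the structure constants at the zeros of the primitive coordinates
-/

namespace Vale.Agent.P269.G2.H333

open Finset.HasAntidiagonal (antidiagonal)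
open Vale.Agent.P269.CI
open Vale.Agent.P269.G1 (RR ser cst lamc Eu lam AA cq)
open Vale.Agent.P269.G2.H984 (RF rhoc dP)

variable {X : CompleteIntersection} {F : ℕ → ℕ → List (Ins X) → ℂ}

/-- in even dimension the correlators are symmetric -/
theorem F_perm (hF : IsGW X F) (he : Even X.dim) (g d : ℕ) {P Q : List (Ins X)} (h : P.Perm Q) :
    F g d P = F g d Q := by
  have key : ∀ A : List (Ins X), F g d (A ++ P) = F g d (A ++ Q) := by
    induction h with
    | nil => intro A; rfl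
    | cons x _ ih =>
      intro A
      have h1 := ih (A ++ [x])
      simpa using h1
    | swap x y l =>
      intro A
      have h2 := hF.symm g d A l y x
      rw [H980.sgn_even he, one_mul] at h2
      exact h2
    | trans _ _ ih1 ih2 => intro A; rw [ih1, ih2]
  exact key []

theorem cor_perm (hF : IsGW X F) (he : Even X.dim) (g : ℕ) {P Q : List (Ins X)} (h : P.Perm Q) :
    cor F g P = cor F g Q := by
  funext d L
  exact F_perm hF he g d (h.append_right L)

theorem ev0_csmul (c : ℂ) (f : RF X) : ev0 (c • f) = c • ev0 f := by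
  ext x : 1
  rw [coeff_ev0]
  change c • MvPowerSeries.coeff _ f = c • MvPowerSeries.coeff x (ev0 f)
  rw [coeff_ev0]

theorem ev0_phi_sum (h : Ix X → ℂ) (g : Ix X → RM X) :
    ev0 (phi X (∑ l, h l • g l)) = ∑ l, h l • ev0 (phi X (g l)) := by
  rw [map_sum, map_sum]
  refine Finset.sum_congr rfl fun l _ => ?_
  rw [phi_smul, ev0_csmul]

theorem ev0_phi_qc (hF : IsGW X F) (he : Even X.dim) (a b c : Ix X) :
    ev0 (phi X (qc F a b c)) =
      ∑ l, pairingInv X l c • ser (cor F 0 [(a, 0), (b, 0), (l, 0)]) := by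
  unfold qc
  rw [ev0_phi_sum]
  refine Finset.sum_congr rfl fun l _ => ?_
  rw [ev0_phi_sr _ (symF_cor (E0 X) hF he 0 _)]

/-- **[Yc]** -/
theorem ev0_qc_inl (hF : IsGW X F) (he : Even X.dim) (i j k : Fin (X.dim + 1)) :
    ev0 (phi X (qc F (Sum.inl i) (Sum.inl j) (Sum.inl k))) = G1.qc F i j k := by
  rw [ev0_phi_qc hF he, Fintype.sum_sum_type]
  have z : ∑ v : X.Prim, pairingInv X (Sum.inr v) (Sum.inl k) •
      ser (cor F 0 [(Sum.inl i, 0), (Sum.inl j, 0), (Sum.inr v, 0)]) = 0 := by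
    refine Finset.sum_eq_zero fun v _ => ?_
    have : pairingInv X (Sum.inr v) (Sum.inl k) = 0 := rfl
    rw [this, zero_smul]
  rw [z, add_zero]
  rfl

theorem ser_one_prim (hF : IsGW X F) (he : Even X.dim) (h1 : IsGenusOne F)
    (i j : Fin (X.dim + 1)) (v : X.Prim) {P : List (Ins X)}
    (hP : P.Perm [(Sum.inr v, 0), hpow X i, hpow X j]) : ser (cor F 0 P) = 0 := by
  rw [cor_perm hF he 0 hP]
  refine G1.H598.cor_prim h1 0 v 0 [hpow X i, hpow X j] ?_
  intro x hx
  simp only [List.mem_cons, List.not_mem_nil, or_false] at hx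
  rcases hx with rfl | rfl
  · exact ⟨i, rfl⟩
  · exact ⟨j, rfl⟩

/-- **[Yc]** -/
theorem ev0_qc_inr (hF : IsGW X F) (he : Even X.dim) (h1 : IsGenusOne F)
    (i j : Fin (X.dim + 1)) (b : X.Prim) :
    ev0 (phi X (qc F (Sum.inl i) (Sum.inl j) (Sum.inr b))) = 0 := by
  rw [ev0_phi_qc hF he]
  refine Finset.sum_eq_zero fun l _ => ?_
  rcases l with l | v
  · have : pairingInv X (Sum.inl l) (Sum.inr b) = 0 := rfl
    rw [this, zero_smul]
  · rw [ser_one_prim hF he h1 i j v, smul_zero]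
    change ([hpow X i, hpow X j, (Sum.inr v, 0)] : List (Ins X)).Perm _
    exact (List.perm_append_comm (l₁ := [hpow X i, hpow X j]) (l₂ := [(Sum.inr v, 0)]))

/-- **[Yc]** -/
theorem ev0_qc_mix (hF : IsGW X F) (he : Even X.dim) (h1 : IsGenusOne F)
    (i j : Fin (X.dim + 1)) (b : X.Prim) :
    ev0 (phi X (qc F (Sum.inl i) (Sum.inr b) (Sum.inl j))) = 0 := by
  rw [ev0_phi_qc hF he]
  refine Finset.sum_eq_zero fun l _ => ?_
  rcases l with l | v
  · rw [ser_one_prim hF he h1 i l b, smul_zero]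
    exact List.Perm.swap _ _ _
  · have : pairingInv X (Sum.inr v) (Sum.inl j) = 0 := rfl
    rw [this, zero_smul]

/-- two primitive insertions: `⟨u, w, h^i⟩ = (u, w) λ_i` -/
theorem ser_two_prim (h1 : IsGenusOne F) (u w : X.Prim) (i : Fin (X.dim + 1)) :
    ser (cor F 0 [(Sum.inr u, 0), (Sum.inr w, 0), hpow X i]) = X.form u w • lamc h1 i := by
  have e : ser (cor F 0 [(Sum.inr u, 0), (Sum.inr w, 0), hpow X i]) =
      ser (fun d L => X.form u w * Classical.choose h1.mono2 0 0 d (hpow X i :: L)) := by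
    refine G1.H598.ser_congr fun d L => ?_
    exact Classical.choose_spec h1.mono2 d u w 0 0 (hpow X i :: L.map (hpow X))
      (G1.H410.isAmb_cons (G1.H410.isAmb_map L))
  rw [e]
  exact G1.H598.ser_smul (X.form u w) _

/-- raising an index on the primitive part -/
theorem form_sum (f : RR X) (v b : X.Prim) :
    ∑ u : X.Prim, pairingInv X (Sum.inr u) (Sum.inr b) • (X.form v u • f) =
      if v = b then f else 0 := by
  have h : ∑ u : X.Prim, pairingInv X (Sum.inr u) (Sum.inr b) * X.form v u =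
      if v = b then 1 else 0 := by
    have h2 : (Matrix.of X.form) * (Matrix.of X.form)⁻¹ = 1 :=
      Matrix.mul_nonsing_inv _ (isUnit_iff_ne_zero.2 X.form_nondeg)
    have h3 := congrFun (congrFun h2 v) b
    rw [Matrix.mul_apply, Matrix.one_apply] at h3
    rw [← h3]
    refine Finset.sum_congr rfl fun u _ => ?_
    rw [mul_comm]
    rfl
  simp only [smul_smul]
  rw [← Finset.sum_smul, h, ite_smul, one_smul, zero_smul]

/-- **[Yc]** -/
theorem ev0_qc_two (hF : IsGW X F) (he : Even X.dim) (h1 : IsGenusOne F)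
    (i : Fin (X.dim + 1)) (u b : X.Prim) :
    ev0 (phi X (qc F (Sum.inl i) (Sum.inr u) (Sum.inr b))) =
      if u = b then lamc h1 i else 0 := by
  rw [ev0_phi_qc hF he, Fintype.sum_sum_type]
  have z : ∑ l : Fin (X.dim + 1), pairingInv X (Sum.inl l) (Sum.inr b) •
      ser (cor F 0 [(Sum.inl i, 0), (Sum.inr u, 0), (Sum.inl l, 0)]) = 0 := by
    refine Finset.sum_eq_zero fun l _ => ?_
    have : pairingInv X (Sum.inl l) (Sum.inr b) = 0 := rfl
    rw [this, zero_smul]
  rw [z, zero_add, ← form_sum (lamc h1 i) u b]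
  refine Finset.sum_congr rfl fun w _ => ?_
  rw [← ser_two_prim h1 u w i]
  congr 2
  exact cor_perm hF he 0 (List.perm_append_comm (l₁ := [hpow X i])
    (l₂ := [(Sum.inr u, 0), (Sum.inr w, 0)]))

/-- **[Yc]** -/
theorem ev0_pd_qc (hF : IsGW X F) (he : Even X.dim) (h1 : IsGenusOne F)
    (v : X.Prim) (i j : Fin (X.dim + 1)) (b : X.Prim) :
    ev0 (MvPowerSeries.pderiv (PowerSeries ℂ) (Sum.inr v)
      (phi X (qc F (Sum.inl i) (Sum.inl j) (Sum.inr b)))) =
      if v = b then MvPowerSeries.pderiv (PowerSeries ℂ) j (lamc h1 i) else 0 := by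
  rw [← phi_pd]
  have e1 : pd (Sum.inr v) (qc F (Sum.inl i) (Sum.inl j) (Sum.inr b)) =
      ∑ l : Ix X, pairingInv X l (Sum.inr b) •
        sr (E0 X) (cor F 0 [(Sum.inr v, 0), hpow X i, hpow X j, (l, 0)]) := by
    unfold pd qc
    rw [map_sum]
    refine Finset.sum_congr rfl fun l _ => ?_
    have e2 : ∀ (c : ℂ) (f : RM X), MvPowerSeries.pderiv (PowerSeries ℂ)
        ((E0 X).i0 (Sum.inr v)) (c • f) =
        c • MvPowerSeries.pderiv (PowerSeries ℂ) ((E0 X).i0 (Sum.inr v)) f := by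
      intro c f
      have e3 : ∀ g : RM X, c • g = (PowerSeries.C c : PowerSeries ℂ) • g := by
        intro g
        ext x : 1
        change c • MvPowerSeries.coeff x g = PowerSeries.C c * MvPowerSeries.coeff x g
        rw [← PowerSeries.smul_eq_C_mul]
      rw [e3, e3, Derivation.map_smul]
    rw [e2, pderiv_sr_cor (E0 X) hF he, (E0 X).e_i0]
    rfl
  rw [e1, ev0_phi_sum, Fintype.sum_sum_type]
  have z : ∑ l : Fin (X.dim + 1), pairingInv X (Sum.inl l) (Sum.inr b) •
      ev0 (phi X (sr (E0 X) (cor F 0 [(Sum.inr v, 0), hpow X i, hpow X j, (Sum.inl l, 0)]))) =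
        0 := by
    refine Finset.sum_eq_zero fun l _ => ?_
    have : pairingInv X (Sum.inl l) (Sum.inr b) = 0 := rfl
    rw [this, zero_smul]
  rw [z, zero_add, ← form_sum _ v b]
  refine Finset.sum_congr rfl fun u _ => ?_
  rw [ev0_phi_sr _ (symF_cor (E0 X) hF he 0 _)]
  have e5 : X.form v u • MvPowerSeries.pderiv (PowerSeries ℂ) j (lamc h1 i) =
      ser (cor F 0 (hpow X j :: [(Sum.inr v, 0), (Sum.inr u, 0), hpow X i])) := by
    rw [← G1.pderiv_cor hF, ser_two_prim h1 v u i]
    rw [G1.H598.smul_RR, G1.H598.smul_RR, Derivation.leibniz]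
    unfold G1.H598.kst
    rw [MvPowerSeries.pderiv_C, smul_zero, add_zero, smul_eq_mul]
  rw [e5]
  congr 2
  apply cor_perm hF he 0
  have p1 : ([(Sum.inr v, 0), hpow X i, hpow X j, (Sum.inr u, 0)] : List (Ins X)).Perm
      ([(Sum.inr v, 0), (Sum.inr u, 0), hpow X i, hpow X j]) := by
    refine List.Perm.cons _ ?_
    exact List.perm_append_comm (l₁ := [hpow X i, hpow X j]) (l₂ := [(Sum.inr u, 0)])
  refine p1.trans ?_
  exact List.perm_append_comm (l₁ := [(Sum.inr v, 0), (Sum.inr u, 0), hpow X i])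
    (l₂ := [hpow X j])

end Vale.Agent.P269.G2.H333
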