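import Vale.Agent.P269.G1I.All
import Vale.Agent.P269.G2I.BSpec1
import Vale.Agent.P269.G2I.Model1
import Vale.Agent.P269.G2I.Model2
import Vale.Agent.P269.G2I.T.H333_YC
import Vale.Agent.P269.G2I.T.H333_YD
import Vale.Agent.P269.G2I.T.H598_M1
import Vale.Agent.P269.G2I.XSpec1

/-!
# [Ye] the powers of the Euler field near the zeros of the primitive coordinates
-/

namespace Vale.Agent.P269.G2.H333.Ye

open Finset.HasAntidiagonal (antidiagonal)
open Vale.Agent.P269.CI
open Vale.Agent.P269.G1 (RR ser cst lamc Eu lam AA cq)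
open Vale.Agent.P269.G2.H984 (RF rhoc dP)

variable {X : CompleteIntersection} {F : ℕ → ℕ → List (Ins X) → ℂ}

theorem phi_pow_zero (hF : IsGW X F) (he : Even X.dim) (k : Ix X) :
    phi X ((EM hF he ^ 0 : AM hF he) k) = if k = Sum.inl 0 then 1 else 0 := by
  rw [pow_zero]
  change phi X (if k = one X then (1 : RM X) else 0) = if k = Sum.inl 0 then 1 else 0
  change phi X (if k = Sum.inl 0 then (1 : RM X) else 0) = if k = Sum.inl 0 then 1 else 0
  by_cases h : k = Sum.inl 0
  · rw [if_pos h, if_pos h, map_one]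
  · rw [if_neg h, if_neg h, map_zero]

theorem phi_pow_succ (hF : IsGW X F) (he : Even X.dim) (m : ℕ) (k : Ix X) :
    phi X ((EM hF he ^ (m + 1) : AM hF he) k) =
      ∑ i, ∑ j, phi X (EM hF he i) * phi X ((EM hF he ^ m : AM hF he) j) *
        phi X (qc F i j k) := by
  have h : (EM hF he ^ (m + 1) : AM hF he) k =
      ∑ i, ∑ j, (EM hF he : AM hF he) i * (EM hF he ^ m : AM hF he) j * qc F i j k := by
    rw [pow_succ']
    rfl
  rw [h, map_sum]
  refine Finset.sum_congr rfl fun i _ => ?_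
  rw [map_sum]
  refine Finset.sum_congr rfl fun j _ => ?_
  rw [map_mul, map_mul]

/-- **[Ye]** from `H333.ev0_pow_inl` -/
theorem ev0_pow_inl (hF : IsGW X F) (he : Even X.dim) (h1 : IsGenusOne F) (m : ℕ)
    (i : Fin (X.dim + 1)) : ev0 (phi X ((EM hF he ^ m : AM hF he) (Sum.inl i))) =
      (Eu hF h1 ^ m : AA hF h1) i :=
  H333.ev0_pow_inl hF h1 (fun i j k => phi X (qc F i j k)) (fun k => phi X (EM hF he k))
    (fun m k => phi X ((EM hF he ^ m : AM hF he) k))
    (fun i j k => ev0_qc_inl hF he i j k) (fun i => ev0_EM_inl hF he h1 i)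
    (fun b => ev0_EM_inr hF he b) (fun i j b => ev0_qc_inr hF he h1 i j b)
    (fun k => phi_pow_zero hF he k) (fun m k => phi_pow_succ hF he m k) m i

/-- **[Ye]** from `H333.pow_inr` -/
theorem ev0_pow_inr (hF : IsGW X F) (he : Even X.dim) (h1 : IsGenusOne F) (m : ℕ)
    (b : X.Prim) : ev0 (phi X ((EM hF he ^ m : AM hF he) (Sum.inr b))) = 0 :=
  pow_inr ev0 (fun i j k => phi X (qc F i j k)) (fun i j b => ev0_qc_inr hF he h1 i j b)
    (fun k => phi X (EM hF he k)) (fun b => ev0_EM_inr hF he b)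
    (fun m k => phi X ((EM hF he ^ m : AM hF he) k))
    (fun b => by
      rw [phi_pow_zero, if_neg (by simp)])
    (fun m k => phi_pow_succ hF he m k) m b

/-- **[Ye]** from `H333.ev0_pow_inr` -/
theorem ev0_pd_pow (hF : IsGW X F) (he : Even X.dim) (h1 : IsGenusOne F) (m : ℕ)
    (v b : X.Prim) : ev0 (MvPowerSeries.pderiv (PowerSeries ℂ) (Sum.inr v)
      (phi X ((EM hF he ^ m : AM hF he) (Sum.inr b)))) =
      if v = b then rhoc hF h1 m v else 0 :=
  H333.ev0_pow_inr hF h1 (fun i j k => phi X (qc F i j k)) (fun k => phi X (EM hF he k))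
    (fun m k => phi X ((EM hF he ^ m : AM hF he) k))
    (fun i j k => ev0_qc_inl hF he i j k) (fun i j b => ev0_qc_inr hF he h1 i j b)
    (fun i u b => ev0_qc_two hF he h1 i u b)
    (fun i u b => by
      rw [qc_comm hF he, ev0_qc_two hF he h1])
    (fun v i j b => ev0_pd_qc hF he h1 v i j b) (fun i => ev0_EM_inl hF he h1 i)
    (fun b => ev0_EM_inr hF he b) (fun v i => ev0_pd_EM_inl hF he v i)
    (fun v b => ev0_pd_EM_inr hF he v b) (fun k => phi_pow_zero hF he k)
    (fun m k => phi_pow_succ hF he m k) m v b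

end Vale.Agent.P269.G2.H333.Ye
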