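import Vale.Agent.P269.G2I.H333.Leib

/-!
# Power series in two groups of variables: restriction to the zeros of the second group
-/

namespace Vale.Agent.P269.G2.H333

open Finset

variable {ι κ A : Type*} [CommRing A]

/-- the partial derivatives -/
noncomputable def DD (i : ι ⊕ κ) (f : MvPowerSeries (ι ⊕ κ) A) : MvPowerSeries (ι ⊕ κ) A :=
  MvPowerSeries.pderiv A i f

theorem DD_apply (i : ι ⊕ κ) (f : MvPowerSeries (ι ⊕ κ) A) :
    DD i f = MvPowerSeries.pderiv A i f := rfl

theorem isDer_DD (i : ι ⊕ κ) : IsDer (DD (A := A) i) where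
  add f g := map_add _ f g
  mul f g := by
    rw [DD_apply, Derivation.leibniz, smul_eq_mul, smul_eq_mul, DD_apply, DD_apply]
    ring

/-- the coordinates in `κ` are set to zero -/
noncomputable def ev0 : MvPowerSeries (ι ⊕ κ) A →+* MvPowerSeries ι A :=
  (MvPowerSeries.killCompl (R := A) (Function.Embedding.inl (α := ι) (β := κ))).toRingHom

theorem coeff_ev0 (f : MvPowerSeries (ι ⊕ κ) A) (x : ι →₀ ℕ) :
    MvPowerSeries.coeff x (ev0 f) =
      MvPowerSeries.coeff (Finsupp.embDomain Function.Embedding.inl x) f :=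
  MvPowerSeries.coeff_killCompl f x

theorem ev0_C (a : A) : ev0 (MvPowerSeries.C (σ := ι ⊕ κ) a) = MvPowerSeries.C a :=
  MvPowerSeries.killCompl_C a

theorem ev0_X_inl (i : ι) :
    ev0 (MvPowerSeries.X (R := A) (Sum.inl i : ι ⊕ κ)) = MvPowerSeries.X i :=
  MvPowerSeries.killCompl_X (R := A) (e := Function.Embedding.inl (α := ι) (β := κ)) i

theorem ev0_X_inr (v : κ) :
    ev0 (MvPowerSeries.X (R := A) (Sum.inr v : ι ⊕ κ)) = 0 := by
  refine MvPowerSeries.killCompl_X_eq_zero (R := A)
    (e := Function.Embedding.inl (α := ι) (β := κ)) ?_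
  rintro ⟨i, hi⟩
  simp at hi

theorem ev0_smul (a : A) (f : MvPowerSeries (ι ⊕ κ) A) : ev0 (a • f) = a • ev0 f :=
  map_smul (MvPowerSeries.killCompl (R := A) (Function.Embedding.inl (α := ι) (β := κ))) a f

theorem constantCoeff_ev0 (f : MvPowerSeries (ι ⊕ κ) A) :
    MvPowerSeries.constantCoeff (ev0 f) = MvPowerSeries.constantCoeff f := by
  rw [← MvPowerSeries.coeff_zero_eq_constantCoeff_apply,
    ← MvPowerSeries.coeff_zero_eq_constantCoeff_apply, coeff_ev0, Finsupp.embDomain_zero]

theorem ev0_pderiv (i : ι) (f : MvPowerSeries (ι ⊕ κ) A) :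
    ev0 (MvPowerSeries.pderiv A (Sum.inl i) f) = MvPowerSeries.pderiv A i (ev0 f) := by
  ext x
  rw [coeff_ev0, MvPowerSeries.coeff_pderiv, MvPowerSeries.coeff_pderiv, coeff_ev0]
  have h1 : Finsupp.embDomain (Function.Embedding.inl (α := ι) (β := κ)) x (Sum.inl i) = x i :=
    Finsupp.embDomain_apply_self (Function.Embedding.inl (α := ι) (β := κ)) x i
  have h2 : Finsupp.embDomain (Function.Embedding.inl (α := ι) (β := κ))
      (x + Finsupp.single i 1) =
      Finsupp.embDomain (Function.Embedding.inl (α := ι) (β := κ)) x +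
        Finsupp.single (Sum.inl i) 1 := by
    classical
    rw [Finsupp.embDomain_add, Finsupp.embDomain_single]
    rfl
  rw [h1, h2]

theorem ev0_DD (i : ι) (f : MvPowerSeries (ι ⊕ κ) A) :
    ev0 (DD (Sum.inl i) f) = MvPowerSeries.pderiv A i (ev0 f) := ev0_pderiv i f

theorem pderiv_comm' {σ : Type*} (a b : σ) (f : MvPowerSeries σ A) :
    MvPowerSeries.pderiv A a (MvPowerSeries.pderiv A b f) =
      MvPowerSeries.pderiv A b (MvPowerSeries.pderiv A a f) := by
  classical
  ext x
  rw [MvPowerSeries.coeff_pderiv, MvPowerSeries.coeff_pderiv, MvPowerSeries.coeff_pderiv,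
    MvPowerSeries.coeff_pderiv, add_right_comm x (Finsupp.single a 1)]
  by_cases h : a = b
  · subst h; rfl
  · rw [Finsupp.add_apply, Finsupp.add_apply, Finsupp.single_eq_of_ne h,
      Finsupp.single_eq_of_ne (Ne.symm h)]
    push_cast
    ring

theorem DD_comm (a b : ι ⊕ κ) (f : MvPowerSeries (ι ⊕ κ) A) : DD a (DD b f) = DD b (DD a f) :=
  pderiv_comm' a b f

/-- a series all of whose derivatives in the directions of `κ` vanish at the zeros of the
coordinates in `κ` is zero -/
theorem eq_zero_of_dl [Fintype κ] [Algebra ℚ A] (f : MvPowerSeries (ι ⊕ κ) A)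
    (h : ∀ w : List κ, ev0 (dl (fun v => DD (Sum.inr v)) w f) = 0) : f = 0 := by
  classical
  have main : ∀ (k : ℕ) (f : MvPowerSeries (ι ⊕ κ) A),
      (∀ w : List κ, ev0 (dl (fun v => DD (Sum.inr v)) w f) = 0) →
      ∀ γ : (ι ⊕ κ) →₀ ℕ, ∑ v, γ (Sum.inr v) = k → MvPowerSeries.coeff γ f = 0 := by
    intro k
    induction k with
    | zero =>
      intro f hf γ hγ
      have h0 : ∀ v, γ (Sum.inr v) = 0 := fun v =>
        (Finset.sum_eq_zero_iff.1 hγ) v (mem_univ v)
      have h1 := hf []
      rw [dl_nil] at h1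
      have h2 : γ = Finsupp.embDomain (Function.Embedding.inl (α := ι) (β := κ))
          (γ.comapDomain Sum.inl Sum.inl_injective.injOn) := by
        ext a
        rcases a with i | v
        · have := Finsupp.embDomain_apply_self (Function.Embedding.inl (α := ι) (β := κ))
            (γ.comapDomain Sum.inl Sum.inl_injective.injOn) i
          exact this.symm
        · rw [h0 v]
          rw [Finsupp.embDomain_of_notMem_range]
          rintro ⟨i, hi⟩
          simp at hi
      rw [h2, ← coeff_ev0, h1, map_zero]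
    | succ k ih =>
      intro f hf γ hγ
      obtain ⟨v, hv⟩ : ∃ v, γ (Sum.inr v) ≠ 0 := by
        by_contra hcon
        push Not at hcon
        rw [Finset.sum_eq_zero fun v _ => hcon v] at hγ
        omega
      obtain ⟨γ', rfl⟩ : ∃ γ' : (ι ⊕ κ) →₀ ℕ, γ = γ' + Finsupp.single (Sum.inr v) 1 := by
        refine ⟨γ - Finsupp.single (Sum.inr v) 1, ?_⟩
        rw [tsub_add_cancel_of_le]
        intro a
        by_cases ha : a = Sum.inr v
        · subst ha
          rw [Finsupp.single_eq_same]
          omega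
        · rw [Finsupp.single_eq_of_ne ha]
          exact Nat.zero_le _
      have hk : ∑ u, γ' (Sum.inr u) = k := by
        have e : ∀ u : κ, (γ' + Finsupp.single (Sum.inr v) 1 : (ι ⊕ κ) →₀ ℕ) (Sum.inr u) =
            γ' (Sum.inr u) + if u = v then 1 else 0 := by
          intro u
          rw [Finsupp.add_apply]
          congr 1
          by_cases hu : u = v
          · subst hu; simp
          · rw [if_neg hu, Finsupp.single_eq_of_ne]
            intro hh
            exact hu (Sum.inr_injective hh)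
        rw [sum_congr rfl fun u _ => e u, sum_add_distrib, sum_ite_eq' univ v,
          if_pos (mem_univ _)] at hγ
        omega
      have h3 := ih (DD (Sum.inr v) f) (fun w => hf (v :: w)) γ' hk
      rw [DD_apply, MvPowerSeries.coeff_pderiv] at h3
      have h4 : ((γ' (Sum.inr v) : A) + 1) = algebraMap ℚ A ((γ' (Sum.inr v) : ℚ) + 1) := by
        simp
      rw [h4, mul_comm] at h3
      have h5 : algebraMap ℚ A (((γ' (Sum.inr v) : ℚ) + 1)⁻¹) *
          (algebraMap ℚ A ((γ' (Sum.inr v) : ℚ) + 1) *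
            MvPowerSeries.coeff (γ' + Finsupp.single (Sum.inr v) 1) f) = 0 := by
        rw [h3, mul_zero]
      rw [← mul_assoc, ← map_mul, inv_mul_cancel₀ (by positivity), map_one, one_mul] at h5
      exact h5
  ext γ
  rw [map_zero]
  exact main _ f h γ rfl

/-- induction over the order of vanishing -/
theorem all_zero [Fintype κ] [Algebra ℚ A] {N : Type*} (a : N → MvPowerSeries (ι ⊕ κ) A)
    (h : ∀ w : List κ, (∀ n, Van (fun v => DD (Sum.inr v)) ev0 w.length (a n)) →
      ∀ n, ev0 (dl (fun v => DD (Sum.inr v)) w (a n)) = 0) (n : N) : a n = 0 := by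
  have main : ∀ (k : ℕ) (n : N), Van (fun v => DD (Sum.inr v)) ev0 k (a n) := by
    intro k
    induction k with
    | zero =>
      intro n u hu
      omega
    | succ k ih =>
      intro n u hu
      rcases Nat.lt_succ_iff_lt_or_eq.1 hu with h1 | h1
      · exact ih n u h1
      · exact h u (fun m => h1 ▸ ih m) n
  exact eq_zero_of_dl (a n) fun w => main (w.length + 1) n w (Nat.lt_succ_self _)

/-- **[X2]** the derivative along a vector field at the zeros of the coordinates in `κ` -/
theorem dl_field_ev0 [Fintype ι] [Fintype κ] [DecidableEq κ] (V : ι ⊕ κ → MvPowerSeries (ι ⊕ κ) A)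
    (ρ : κ → MvPowerSeries ι A) (hV0 : ∀ b, ev0 (V (Sum.inr b)) = 0)
    (hV1 : ∀ v b, ev0 (MvPowerSeries.pderiv A (Sum.inr v) (V (Sum.inr b))) =
      if v = b then ρ v else 0)
    (a : MvPowerSeries (ι ⊕ κ) A) (w : List κ)
    (h : Van (fun v => DD (Sum.inr v)) ev0 w.length a) :
    ev0 (dl (fun v => DD (Sum.inr v)) w (∑ i, V i * MvPowerSeries.pderiv A i a)) =
      ∑ i, ev0 (V (Sum.inl i)) * MvPowerSeries.pderiv A i
        (ev0 (dl (fun v => DD (Sum.inr v)) w a)) +
        (w.map ρ).sum * ev0 (dl (fun v => DD (Sum.inr v)) w a) :=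
  dl_field DD ev0 (fun i f => MvPowerSeries.pderiv A i f) isDer_DD DD_comm ev0_pderiv
    (fun i => map_zero _) V ρ hV0 hV1 a w h

end Vale.Agent.P269.G2.H333
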